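import Vale.Agent.P338.R3.H282.Coord
import Vale.Agent.P338.R3.H955.Pipe

/-!
P338-D, module EXPAND (W on all digits): the lockstep operator `W` on padded arrays, its square,
and its explicit kernel.
-/

namespace Vale.Agent.P338.R3.H715

open Finset
open Vale.Agent.P338.R3.H282
open Vale.Agent.P338.R3.H955 (kU Orth U_sq)

variable {M : Type*} [AddCommGroup M] [Module ℂ M] {δ : Type}

/-- the standard character is orthogonal -/
theorem orth_std (n : ℕ) [NeZero n] : Orth (ZMod.stdAddChar (N := n)) := by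
  intro b hb
  rw [AddChar.sum_mulShift b (ZMod.isPrimitive_stdAddChar n), if_neg hb]
  simp

/-- the unpadded kernel of the local program: `(X, Y) ↦ (- F⁻¹ Y, F X)` -/
noncomputable def Wk (q : ℕ → ℕ) [∀ k, NeZero (q k)] {D : ℕ} (i : Fin D) :
    Matrix (Bool × ZMod (q i)) (Bool × ZMod (q i)) ℂ :=
  Matrix.of (kU (ZMod.stdAddChar (N := q i)) 1 (1 / (q i : ℂ)))

section general

variable {q : ℕ → ℕ} [∀ k, NeZero (q k)] {D : ℕ}

theorem Wk_mul_Wk (i : Fin D) : Wk q i * Wk q i = (-1 : ℂ) • 1 := by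
  ext a b
  rw [Matrix.mul_apply]
  have h : (1 : ℂ) * (1 / (q i : ℂ)) * (q i : ℂ) = 1 := by
    have : (q i : ℂ) ≠ 0 := by exact_mod_cast NeZero.ne (q i)
    field_simp
  have h1 := U_sq (orth_std (q i)) h a b
  rw [show ∑ c, Wk q i a c * Wk q i c b = ∑ c, kU (ZMod.stdAddChar (N := q i)) 1
    (1 / (q i : ℂ)) a c * kU (ZMod.stdAddChar (N := q i)) 1 (1 / (q i : ℂ)) c b from rfl, h1]
  rw [Matrix.smul_apply, Matrix.one_apply]
  by_cases hab : a = b
  · subst hab; simp
  · rw [if_neg hab, if_neg (Ne.symm hab)]; simp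

theorem lock_neg_one (J : List (Fin D)) :
    (lock J (fun i => (-1 : ℂ) • (1 : Matrix (Bool × ZMod (q i)) (Bool × ZMod (q i)) ℂ)) :
      Module.End ℂ ((∀ i : Fin D, Bool × ZMod (q i)) → M)) = ((-1 : ℂ) ^ J.length) • 1 := by
  induction J with
  | nil => rw [lock_nil]; simp
  | cons j J ih =>
    rw [lock_cons, ih, lift_smul, lift_one, List.length_cons, pow_succ']
    rw [smul_mul_smul_comm, mul_one]

/-- `W` twice is a sign -/
theorem lock_Wk_sq {J : List (Fin D)} (hJ : J.Nodup)
    (g : (∀ i : Fin D, Bool × ZMod (q i)) → M) :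
    lock J (fun i => Wk q i) (lock J (fun i => Wk q i) g) = (-1 : ℂ) ^ J.length • g := by
  rw [← Module.End.mul_apply, ← lock_mul hJ]
  simp only [Wk_mul_Wk]
  rw [lock_neg_one]
  rfl

/-- `W` on all digits, twice -/
theorem lock_Wk_all_sq (g : (∀ i : Fin D, Bool × ZMod (q i)) → M) :
    lock (List.finRange D) (fun i => Wk q i) (lock (List.finRange D) (fun i => Wk q i) g) =
      (-1 : ℂ) ^ D • g := by
  rw [lock_Wk_sq (List.nodup_finRange D), List.length_finRange]

/-- the nonzero entries of the kernel -/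
theorem kU_not {n : ℕ} [NeZero n] (ρ : Bool) (z y : ZMod n) :
    kU (ZMod.stdAddChar (N := n)) 1 (1 / (n : ℂ)) (ρ, z) (!ρ, y) =
      (if ρ then 1 else -(1 / (n : ℂ))) * ZMod.stdAddChar (if ρ then z * y else -(z * y)) := by
  cases ρ
  · simp [kU]
  · simp [kU]

theorem kU_same {n : ℕ} [NeZero n] (g g' : ℂ) (ρ : Bool) (z y : ZMod n) :
    kU (ZMod.stdAddChar (N := n)) g g' (ρ, z) (ρ, y) = 0 := by
  cases ρ <;> rfl

/-- the tuple of source positions: opposite registers -/
def opp (x : ∀ i : Fin D, Bool × ZMod (q i)) (y : ∀ i : Fin D, ZMod (q i)) :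
    ∀ i : Fin D, Bool × ZMod (q i) := fun i => (!(x i).1, y i)

/-- the scale of `W` on all digits at the register values of `x` -/
noncomputable def cW (x : ∀ i : Fin D, Bool × ZMod (q i)) : ℂ :=
  ∏ i, if (x i).1 then (1 : ℂ) else -(1 / (q i : ℂ))

/-- the character of `W` on all digits -/
noncomputable def chW (x : ∀ i : Fin D, Bool × ZMod (q i)) (y : ∀ i : Fin D, ZMod (q i)) : ℂ :=
  ∏ i, ZMod.stdAddChar (if (x i).1 then (x i).2 * y i else -((x i).2 * y i))

theorem cW_ne_zero (x : ∀ i : Fin D, Bool × ZMod (q i)) : cW x ≠ 0 := by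
  unfold cW
  rw [Finset.prod_ne_zero_iff]
  intro i _
  have : (q i : ℂ) ≠ 0 := by exact_mod_cast NeZero.ne (q i)
  split_ifs
  · exact one_ne_zero
  · simp [this]

theorem chW_add (x : ∀ i : Fin D, Bool × ZMod (q i)) (y z : ∀ i : Fin D, ZMod (q i)) :
    chW x (y + z) = chW x y * chW x z := by
  unfold chW
  rw [← Finset.prod_mul_distrib]
  refine Finset.prod_congr rfl fun i _ => ?_
  rw [← AddChar.map_add_eq_mul]
  congr 1
  split_ifs
  · rw [Pi.add_apply]; ring
  · rw [Pi.add_apply]; ring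

theorem chW_zero (x : ∀ i : Fin D, Bool × ZMod (q i)) :
    chW x (fun _ => 0) = 1 := by
  unfold chW
  refine Finset.prod_eq_one fun i _ => ?_
  split_ifs <;> simp

/-- explicit kernel of `W` on all digits -/
theorem lock_Wk_apply (g : (∀ i : Fin D, Bool × ZMod (q i)) → M)
    (x : ∀ i : Fin D, Bool × ZMod (q i)) :
    lock (List.finRange D) (fun i => Wk q i) g x =
      cW x • ∑ y : ∀ i : Fin D, ZMod (q i), chW x y • g (opp x y) := by
  rw [lock_univ_apply, Finset.smul_sum]
  symm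
  refine Fintype.sum_of_injective (fun y => opp x y) ?_ _ _ ?_ ?_
  · intro y z h
    funext i
    exact congrArg Prod.snd (congrFun h i)
  · intro y hy
    have h1 : ∃ i, (y i).1 = (x i).1 := by
      by_contra h
      push Not at h
      apply hy
      refine ⟨fun i => (y i).2, ?_⟩
      funext i
      apply Prod.ext
      · have := h i
        simp only [opp]
        cases h2 : (x i).1 <;> cases h3 : (y i).1 <;> simp_all
      · rfl
    obtain ⟨i, hi⟩ := h1
    have h2 : ∏ i, Wk q i (x i) (y i) = 0 := by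
      apply Finset.prod_eq_zero (Finset.mem_univ i)
      have h3 : y i = ((x i).1, (y i).2) := Prod.ext hi rfl
      rw [h3]
      exact kU_same _ _ _ _ _
    rw [h2, zero_smul]
  · intro y
    rw [smul_smul]
    congr 1
    unfold cW chW
    rw [← Finset.prod_mul_distrib]
    refine Finset.prod_congr rfl fun i _ => ?_
    exact (kU_not (x i).1 (x i).2 (y i)).symm

end general

/-! ### the padded flat array -/

section rel

variable {G : Geo} [∀ k, NeZero (G.q k)] {hq : ∀ i : Fin G.d, G.q i ≤ 2 ^ G.a}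

/-- a lockstep program on the digits of `J` -/
theorem Rel.W {J : List (Fin G.d)} (hJ : J.Nodup) {prog : List (Ly δ)}
    (hp : ∀ l ∈ prog, l.ok G.a) {lv : ℕ → δ → ℕ → ℂ}
    {K : ∀ i : Fin G.d, Matrix (Bool × ZMod (G.q i)) (Bool × ZMod (G.q i)) ℂ}
    (ht : ∀ i ∈ J, Twin (A := fun _ : Fin G.d => Fin (2 ^ (G.a + 1))) (em hq) i
      (pmat G.a (lv (G.q i)) prog) (K i))
    {F : ℕ → M} {g : ℕ → (∀ i : Fin G.d, Bool × ZMod (G.q i)) → M} (h : Rel hq F g) :
    Rel hq (exs G lv (G.W prog (J.map Fin.val)) F) (fun e => lock J K (g e)) := by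
  intro e he
  rw [toC_W hJ hp, h e he]
  exact lock_ext em_injective J ht (g e)

/-- the program on all digits -/
theorem Rel.W_all {prog : List (Ly δ)}
    (hp : ∀ l ∈ prog, l.ok G.a) {lv : ℕ → δ → ℕ → ℂ}
    (ht : ∀ i : Fin G.d, Twin (A := fun _ : Fin G.d => Fin (2 ^ (G.a + 1))) (em hq) i
      (pmat G.a (lv (G.q i)) prog) (Wk G.q i))
    {F : ℕ → M} {g : ℕ → (∀ i : Fin G.d, Bool × ZMod (G.q i)) → M} (h : Rel hq F g) :
    Rel hq (exs G lv (G.W prog (List.range G.d)) F)
      (fun e => lock (List.finRange G.d) (fun i => Wk G.q i) (g e)) := by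
  have h1 : (List.finRange G.d).map Fin.val = List.range G.d := List.map_coe_finRange_eq_range
  rw [← h1]
  exact Rel.W (List.nodup_finRange G.d) hp (fun i _ => ht i) h

end rel

end Vale.Agent.P338.R3.H715
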